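import Vale.Agent.P116.Defs
import Vale.Agent.P116.KB.Fin213
import Vale.Agent.P116.H155.Plane

/-!
# P116: Koebe's circle domain conjecture, with normalisation and boundary correspondence
-/

open Set Filter Topology Metric OnePoint

namespace Vale.Agent.Results.P116.CircleDomains

open Vale.Agent.P116

/-- **Koebe's conjecture.** (1) Every domain of the Riemann sphere is conformally equivalent to a
circle domain. (2) Every plane domain `G` has, for every `z₀ ∈ G`, an injective holomorphic map `f`
with `f z₀ = 0` and `f' z₀ = 1` onto a domain all of whose complementary components in the plane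
are points, closed disks, or the complement of an open disk centred at `0`. (3) The complement of a
full compact plane set `K` has an injective holomorphic map `f` with `f z - z → 0` at infinity whose
omitted set is compact and has as its components exactly the closed disks (or points)
`closedBall (c x) (r x)`, `x ∈ K`, one for each component of `K`, and `f z` tends to the disk of `x`
when `z` tends to the component of `x`. -/
theorem result :
    (∀ G : Set (OnePoint ℂ), IsDom G →
      ∃ H : Set (OnePoint ℂ), IsCircleDomain H ∧ ConfEquiv G H) ∧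
    (∀ G : Set ℂ, IsOpen G → IsConnected G → ∀ z₀ ∈ G, ∃ f : ℂ → ℂ,
      DifferentiableOn ℂ f G ∧ InjOn f G ∧ f z₀ = 0 ∧ HasDerivAt f 1 z₀ ∧
      ∀ w ∉ f '' G,
        (∃ (c : ℂ) (r : ℝ), 0 ≤ r ∧ connectedComponentIn (f '' G)ᶜ w = closedBall c r) ∨
        ∃ r : ℝ, 0 < r ∧ connectedComponentIn (f '' G)ᶜ w = (ball 0 r)ᶜ) ∧
    (∀ K : Set ℂ, IsCompact K → IsConnected Kᶜ → ∃ (f : ℂ → ℂ) (c : ℂ → ℂ) (r : ℂ → ℝ),
      DifferentiableOn ℂ f Kᶜ ∧ InjOn f Kᶜ ∧ Tendsto (fun z => f z - z) (cocompact ℂ) (𝓝 0) ∧
      IsCompact (f '' Kᶜ)ᶜ ∧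
      (∀ w ∉ f '' Kᶜ, ∃ x ∈ K, connectedComponentIn (f '' Kᶜ)ᶜ w = closedBall (c x) (r x)) ∧
      ∀ x ∈ K, 0 ≤ r x ∧ connectedComponentIn (f '' Kᶜ)ᶜ (c x) = closedBall (c x) (r x) ∧
        (∀ ε > 0, ∀ᶠ z in 𝓝ˢ (connectedComponentIn K x), z ∉ K → ‖f z - c x‖ < r x + ε) ∧
        ∀ y ∈ K, (connectedComponentIn K y = connectedComponentIn K x → c y = c x ∧ r y = r x) ∧
          (connectedComponentIn K y ≠ connectedComponentIn K x →
            Disjoint (closedBall (c y) (r y)) (closedBall (c x) (r x)))) :=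
  ⟨KB.koebe_all, fun _ hG hc _ hz => H155.koebe_plane hG hc.isPreconnected hz,
    fun _ hK hc => H155.koebe_full hK hc.isPreconnected⟩

end Vale.Agent.Results.P116.CircleDomains
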