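import Vale.Agent.P116.Defs
import Vale.Agent.P116.Slow.GdT
import Vale.Agent.P116.Slow.LocB
import Vale.Agent.P116.Slow.Mob
import Vale.Agent.P116.PBC.Sph2

/-!
# P116: countably many prescribed components, and a comeagre set of components, can be made round

For every domain `G` of the Riemann sphere and each countable family `E` of complementary
components there is a conformal map `f` of `G` onto a domain `H` for which each member of `E`,
comeagre many complementary components, and all the (transboundary) parabolic ones, correspond to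
points or closed round disks. If `E` and the parabolic components exhaust the complement then `H`
is a circle domain.
-/

open Set Filter Topology Metric MeasureTheory OnePoint

namespace Vale.Agent.Results.P116.CountableComeagreRound

open Vale.Agent.P116

/-- The complementary component of `G` at `p` corresponds, under the map `f` of `G` onto `H`, to a
point or closed round disk: there is a complementary component `comp H q` of `H`, which is a point
or a closed round disk, such that `f z` tends to `comp H q` as `z` tends to `comp G p` in `G`. -/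
def RoundAt (G H : Set (OnePoint ℂ)) (f : OnePoint ℂ → OnePoint ℂ) (p : OnePoint ℂ) : Prop :=
  ∃ q ∈ Hᶜ, (comp H q = {q} ∨ IsRoundDisk (comp H q)) ∧
    ∀ U : Set (OnePoint ℂ), IsOpen U → comp H q ⊆ U →
      ∃ W : Set (OnePoint ℂ), IsOpen W ∧ comp G p ⊆ W ∧ f '' (W ∩ G) ⊆ U

/-- The length of the set of those radii `ρ ∈ (r, 2r)` for which the circle `|z - x| = ρ` meets
the set `Q`. -/
noncomputable def cross (x : ℂ) (r : ℝ) (Q : Set (OnePoint ℂ)) : ℝ :=
  volume.real {ρ : ℝ | ρ ∈ Ioo r (2 * r) ∧ ∃ z : ℂ, dist z x = ρ ∧ (z : OnePoint ℂ) ∈ Q}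

/-- The packing condition at `x`: for some `C` there are arbitrarily small radii `r > 0` such that
the sum of `cross x r Q ^ 2` over any finitely many complementary components `Q` of `G` which do
not contain `x` is at most `C * r ^ 2`. -/
def Packed (G : Set (OnePoint ℂ)) (x : ℂ) : Prop :=
  ∃ C : ℝ, ∃ᶠ r in 𝓝[>] (0 : ℝ), ∀ T : Finset (Set (OnePoint ℂ)),
    (∀ Q ∈ T, (x : OnePoint ℂ) ∉ Q ∧ ∃ p ∈ Gᶜ, Q = comp G p) →
      ∑ Q ∈ T, cross x r Q ^ 2 ≤ C * r ^ 2

/-- The point `x` is (transboundary) parabolic: there are functions of compact support in an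
arbitrarily small disk about `x`, equal to one near `x`, of arbitrarily small energy, where the
energy is the Dirichlet integral and also the sum of the squares of the oscillations over
complementary components which do not contain `x`. -/
def Parabolic (G : Set (OnePoint ℂ)) (x : ℂ) : Prop :=
  ∀ ε > (0 : ℝ), ∀ ρ > (0 : ℝ), ∃ u : ℂ → ℝ, ContDiff ℝ 1 u ∧ (∀ᶠ z in 𝓝 x, u z = 1) ∧
    (∀ z, ρ ≤ dist z x → u z = 0) ∧ ∫ z, ‖fderiv ℝ u z‖ ^ 2 ≤ ε ∧
    ∀ T : Finset (Set (OnePoint ℂ)), (∀ Q ∈ T, (x : OnePoint ℂ) ∉ Q ∧ ∃ p ∈ Gᶜ, Q = comp G p) →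
      ∑ Q ∈ T, diam (u '' {z : ℂ | (z : OnePoint ℂ) ∈ Q}) ^ 2 ≤ ε

/-- Each point of the complementary component of `G` at `p` is packed or parabolic. (The domain `G`
contains infinity here, so that the whole complement lies in the plane.) -/
def Par (G : Set (OnePoint ℂ)) (p : OnePoint ℂ) : Prop :=
  ∞ ∈ G ∧ ∀ x : ℂ, (x : OnePoint ℂ) ∈ comp G p → Packed G x ∨ Parabolic G x

lemma inj_image :
    Function.Injective (fun P : Set ℂ => (fun z : ℂ => (z : OnePoint ℂ)) '' P) :=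
  OnePoint.coe_injective.image_injective

lemma pb_of_packed {G : Set (OnePoint ℂ)} (hinf : ∞ ∈ G) {x : ℂ} (h : Packed G x) :
    H906.PB (PBC.pl G) x := by
  classical
  obtain ⟨C, hC⟩ := h
  refine ⟨C, hC.mono fun r hr => ?_⟩
  intro T hT
  have h1 := hr (T.image (fun P : Set ℂ => (fun z : ℂ => (z : OnePoint ℂ)) '' P)) (by
    intro Q hQ
    obtain ⟨P, hP, rfl⟩ := Finset.mem_image.1 hQ
    obtain ⟨⟨y, hy, rfl⟩, hxP⟩ := hT P hP
    refine ⟨?_, (y : OnePoint ℂ), hy, ?_⟩
    · rintro ⟨z, hz, hzx⟩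
      have : z = x := OnePoint.coe_injective hzx
      exact hxP (this ▸ hz)
    · exact (PBC.comp_coe hinf hy).symm)
  rw [Finset.sum_image inj_image.injOn] at h1
  refine le_of_eq_of_le (Finset.sum_congr rfl fun P _ => ?_) h1
  congr 1
  rw [H906.exten, cross]
  congr 1
  ext ρ
  constructor
  · rintro ⟨h3, z, hz1, hz2⟩
    exact ⟨h3, z, hz2, z, hz1, rfl⟩
  · rintro ⟨h3, z, hz2, w, hw, hwz⟩
    have : w = z := OnePoint.coe_injective hwz
    exact ⟨h3, z, this ▸ hw, hz2⟩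

lemma tpar_of_parabolic {G : Set (OnePoint ℂ)} (hinf : ∞ ∈ G) {x : ℂ} (h : Parabolic G x) :
    Slow.TPar (PBC.pl G) x := by
  classical
  intro ε hε ρ hρ
  obtain ⟨u, h1, h2, h3, h4, h5⟩ := h ε hε ρ hρ
  refine ⟨u, h1, h2, h3, h4, ?_⟩
  intro T hT
  have h6 := h5 (T.image (fun P : Set ℂ => (fun z : ℂ => (z : OnePoint ℂ)) '' P)) (by
    intro Q hQ
    obtain ⟨P, hP, rfl⟩ := Finset.mem_image.1 hQ
    obtain ⟨⟨y, hy, rfl⟩, hxP⟩ := hT P hP
    refine ⟨?_, (y : OnePoint ℂ), hy, ?_⟩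
    · rintro ⟨z, hz, hzx⟩
      have : z = x := OnePoint.coe_injective hzx
      exact hxP (this ▸ hz)
    · exact (PBC.comp_coe hinf hy).symm)
  rw [Finset.sum_image inj_image.injOn] at h6
  refine le_of_eq_of_le (Finset.sum_congr rfl fun P _ => ?_) h6
  have h7 : {z : ℂ | (z : OnePoint ℂ) ∈ (fun z : ℂ => (z : OnePoint ℂ)) '' P} = P := by
    ext z
    constructor
    · rintro ⟨w, hw, hwz⟩
      have : w = z := OnePoint.coe_injective hwz
      exact this ▸ hw
    · intro hz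
      exact ⟨z, hz, rfl⟩
  rw [h7]

lemma tpar_of {G : Set (OnePoint ℂ)} (hG : IsOpen G) (hinf : ∞ ∈ G) {x : ℂ}
    (h : Packed G x ∨ Parabolic G x) : Slow.TPar (PBC.pl G) x := by
  rcases h with h | h
  · exact Slow.TPar.of_PB (PBC.isCompact_pl hG hinf) (pb_of_packed hinf h)
  · exact tpar_of_parabolic hinf h

/-- the case of domains which contain infinity -/
theorem core (G : Set (OnePoint ℂ)) (hG : IsDom G) (hinf : ∞ ∈ G)
    (E : Set (Set (OnePoint ℂ))) (hE : E.Countable) :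
    ∃ (H : Set (OnePoint ℂ)) (f : OnePoint ℂ → OnePoint ℂ),
      IsDom H ∧ BijOn f G H ∧ (∀ p ∈ G, HolAt f p) ∧
      (∀ p ∈ Gᶜ, comp G p ∈ E ∨ Par G p → RoundAt G H f p) ∧
      (∃ 𝒰 ∈ residual (ConnectedComponents ↥Gᶜ),
        ∀ p : ↥Gᶜ, ConnectedComponents.mk p ∈ 𝒰 → RoundAt G H f p) ∧
      ((∀ p ∈ Gᶜ, comp G p ∈ E ∨ Par G p) → IsCircleDomain H) := by
  have hK : IsCompact (PBC.pl G) := PBC.isCompact_pl hG.1 hinf
  have hc : IsPreconnected (PBC.pl G)ᶜ := PBC.preconn_compl_pl hG.1 hG.2 hinf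
  have hf : H906.Full (PBC.pl G) := H906.full_of_isPreconnected_compl hc hK.isBounded
  -- points of the complement are finite
  have hfin : ∀ p ∈ Gᶜ, ∃ x ∈ PBC.pl G, (x : OnePoint ℂ) = p := by
    intro p hp
    induction p using OnePoint.rec with
    | infty => exact absurd hinf hp
    | coe z => exact ⟨z, hp, rfl⟩
  rcases (PBC.pl G).eq_empty_or_nonempty with hemp | hne
  · have hno : ∀ p, p ∉ Gᶜ := by
      intro p hp
      obtain ⟨x, hx, -⟩ := hfin p hp
      rw [hemp] at hx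
      exact hx
    refine ⟨G, id, hG, bijOn_id G, ?_, fun p hp => absurd hp (hno p), ?_,
      fun _ => ⟨hG, fun p hp => absurd hp (hno p)⟩⟩
    · intro p _
      induction p using OnePoint.rec with
      | infty =>
        exact ⟨fun z : ℂ => recip (z : OnePoint ℂ), Or.inr rfl,
          fun z : ℂ => recip (z : OnePoint ℂ), Or.inr rfl, 0, fun z => z, recip_coe_zero,
          analyticAt_id, Eventually.of_forall fun z => rfl⟩
      | coe z =>
        exact ⟨fun z : ℂ => (z : OnePoint ℂ), Or.inl rfl, fun z : ℂ => (z : OnePoint ℂ),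
          Or.inl rfl, z, fun z => z, rfl, analyticAt_id, Eventually.of_forall fun z => rfl⟩
    · exact ⟨univ, Filter.univ_mem, fun p _ => absurd p.2 (hno p)⟩
  obtain ⟨R, ρ, hR⟩ := Slow.exists_far hK hf
  set P₀ : Set (Set ℂ) :=
    {P | P ∈ H906.comps (PBC.pl G) ∧ (fun z : ℂ => (z : OnePoint ℂ)) '' P ∈ E} with hP₀
  have hP₀c : P₀.Countable :=
    (hE.preimage_of_injOn inj_image.injOn).mono fun P hP => hP.2
  obtain ⟨𝔊, g, hF, hg, hNU, hgood1, hgood2, -, hres⟩ :=
    Slow.exists_full_stateT hR hne (P₀ := P₀) (fun P hP => hP.1) hP₀c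
  obtain ⟨hD1, hD2, hD3, hD4, hD5⟩ := Slow.sphere_loc hK hc hNU
  have hGe : ((fun z : ℂ => (z : OnePoint ℂ)) '' PBC.pl G)ᶜ = G := (PBC.eq_compl_pl hinf).symm
  rw [hGe] at hD2 hD3 hD4
  -- good ends
  have hround : ∀ x ∈ PBC.pl G, H906.GoodAt H906.fk (PBC.pl G) (𝔊 : Filter _) x →
      RoundAt G (((fun z : ℂ => (z : OnePoint ℂ)) '' (g '' (PBC.pl G)ᶜ)ᶜ)ᶜ) (PBC.lift g)
        (x : OnePoint ℂ) := by
    intro x hx hgx
    exact hD4 x hx (Slow.disked_of_good hK hf hF hg hx hgx)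
  have hcompeq : ∀ x ∈ PBC.pl G, comp G (x : OnePoint ℂ) =
      (fun z : ℂ => (z : OnePoint ℂ)) '' connectedComponentIn (PBC.pl G) x :=
    fun x hx => PBC.comp_coe hinf hx
  have hgE : ∀ x ∈ PBC.pl G, comp G (x : OnePoint ℂ) ∈ E →
      H906.GoodAt H906.fk (PBC.pl G) (𝔊 : Filter _) x := by
    intro x hx hxE
    refine hgood1 _ ⟨⟨x, hx, rfl⟩, ?_⟩ x (mem_connectedComponentIn hx)
    rw [← hcompeq x hx]
    exact hxE
  have hgP : ∀ x ∈ PBC.pl G, Par G (x : OnePoint ℂ) →
      H906.GoodAt H906.fk (PBC.pl G) (𝔊 : Filter _) x := by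
    intro x hx hxP
    refine hgood2 x hx fun y hy => tpar_of hG.1 hinf (hxP.2 y ?_)
    rw [hcompeq x hx]
    exact ⟨y, hy, rfl⟩
  refine ⟨_, PBC.lift g, hD1, hD2, hD3, ?_, ?_, ?_⟩
  · intro p hp hpE
    obtain ⟨x, hx, rfl⟩ := hfin p hp
    exact hround x hx (hpE.elim (hgE x hx) (hgP x hx))
  · -- comeagre
    obtain ⟨e, he⟩ : ∃ e : ↥Gᶜ ≃ₜ ↥(PBC.pl G), ∀ p : ↥Gᶜ, ((e p : ℂ) : OnePoint ℂ) = p := by
      have h1 : (fun z : ℂ => (z : OnePoint ℂ)) '' PBC.pl G = Gᶜ := by
        rw [← hGe, compl_compl, hGe]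
      refine ⟨((OnePoint.isOpenEmbedding_coe.isEmbedding.homeomorphImage (PBC.pl G)).trans
        (Homeomorph.setCongr h1)).symm, fun p => ?_⟩
      have h2 := ((OnePoint.isOpenEmbedding_coe.isEmbedding.homeomorphImage (PBC.pl G)).trans
        (Homeomorph.setCongr h1)).apply_symm_apply p
      exact congrArg Subtype.val h2
    obtain ⟨𝒰, h𝒰, h2⟩ := Slow.residual_cc e hres
    refine ⟨𝒰, h𝒰, fun p hp => ?_⟩
    have h3 : H906.GoodAt H906.fk (PBC.pl G) (𝔊 : Filter _) (e p : ℂ) := h2 p hp (e p) rfl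
    have h4 := hround (e p) (e p).2 h3
    rwa [he p] at h4
  · intro hall
    refine hD5 fun w hw => ?_
    refine H906.assembly hK hf hF hg (fun x hx => ?_) hw
    rcases hall (x : OnePoint ℂ) hx with h | h
    · exact hgE x hx h
    · exact hgP x hx h

/-- transfer along a homeomorphism of the sphere -/
lemma RoundAt.comp_homeo {G H : Set (OnePoint ℂ)} {f : OnePoint ℂ → OnePoint ℂ}
    (m : OnePoint ℂ ≃ₜ OnePoint ℂ) {p : OnePoint ℂ} (hp : p ∈ Gᶜ)
    (h : RoundAt (m '' G) H f (m p)) : RoundAt G H (f ∘ m) p := by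
  obtain ⟨q, hq, h1, h2⟩ := h
  refine ⟨q, hq, h1, fun U hU hqU => ?_⟩
  obtain ⟨W, hW, hW1, hW2⟩ := h2 U hU hqU
  rw [Slow.comp_image m hp] at hW1
  refine ⟨m ⁻¹' W, hW.preimage m.continuous, image_subset_iff.1 hW1, ?_⟩
  rintro _ ⟨x, ⟨hxW, hxG⟩, rfl⟩
  exact hW2 ⟨m x, ⟨hxW, x, hxG, rfl⟩, rfl⟩

lemma dense_res {G : Set (OnePoint ℂ)} (hG : IsOpen G)
    {𝒰 : Set (ConnectedComponents ↥Gᶜ)} (h : 𝒰 ∈ residual (ConnectedComponents ↥Gᶜ)) :
    Dense 𝒰 := by
  have h1 : CompactSpace ↥Gᶜ := isCompact_iff_compactSpace.1 hG.isClosed_compl.isCompact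
  exact dense_of_mem_residual h

/-- **Countably many prescribed components, comeagre many components, and all parabolic ones can
be made round simultaneously.** Let `G` be a domain of the Riemann sphere and let `E` be a
countable set of complementary components of `G`. Then there is a conformal map `f` of `G` onto a
domain `H` such that

* every complementary component which is in `E`, or all of whose points are packed or parabolic,
  corresponds under `f` to a point or a closed round disk;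
* the same is true for all complementary components in a comeagre (in particular dense) subset of
  the space of complementary components;
* if each complementary component is in `E` or satisfies `Par`, then `H` is a circle domain. -/
theorem result (G : Set (OnePoint ℂ)) (hG : IsDom G)
    (E : Set (Set (OnePoint ℂ))) (hE : E.Countable) :
    ∃ (H : Set (OnePoint ℂ)) (f : OnePoint ℂ → OnePoint ℂ),
      IsDom H ∧ BijOn f G H ∧ (∀ p ∈ G, HolAt f p) ∧
      (∀ p ∈ Gᶜ, comp G p ∈ E ∨ Par G p → RoundAt G H f p) ∧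
      (∃ 𝒰 ∈ residual (ConnectedComponents ↥Gᶜ), Dense 𝒰 ∧
        ∀ p : ↥Gᶜ, ConnectedComponents.mk p ∈ 𝒰 → RoundAt G H f p) ∧
      ((∀ p ∈ Gᶜ, comp G p ∈ E ∨ Par G p) → IsCircleDomain H) := by
  by_cases hinf : ∞ ∈ G
  · obtain ⟨H, f, h1, h2, h3, h4, ⟨𝒰, h𝒰, h5⟩, h6⟩ := core G hG hinf E hE
    exact ⟨H, f, h1, h2, h3, h4, ⟨𝒰, h𝒰, dense_res hG.1 h𝒰, h5⟩, h6⟩
  obtain ⟨m, hm, hmi⟩ := Slow.exists_conf hG
  have hG' : IsDom (m '' G) :=
    ⟨m.isOpenMap _ hG.1, hG.2.image _ m.continuous.continuousOn⟩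
  obtain ⟨H, f, h1, h2, h3, h4, ⟨𝒱, h𝒱, h5⟩, h6⟩ :=
    core (m '' G) hG' hmi ((fun Q => m '' Q) '' E) (hE.image _)
  have hno : ∀ p, ¬ Par G p := fun p hp => hinf hp.1
  have hmem : ∀ p ∈ Gᶜ, m p ∈ (m '' G)ᶜ := by
    rintro p hp ⟨y, hy, hyp⟩
    exact hp (m.injective hyp ▸ hy)
  have hcE : ∀ p ∈ Gᶜ, comp G p ∈ E → comp (m '' G) (m p) ∈ (fun Q => m '' Q) '' E := by
    intro p hp hpE
    rw [Slow.comp_image m hp]
    exact ⟨_, hpE, rfl⟩
  obtain ⟨𝒰, h𝒰, h7⟩ := Slow.residual_cc (Slow.complHomeo m G) h𝒱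
  refine ⟨H, f ∘ m, h1, h2.comp (m.injective.injOn.bijOn_image), ?_, ?_, ⟨𝒰, h𝒰, dense_res hG.1 h𝒰, ?_⟩, ?_⟩
  · intro p hp
    exact hm f p (h3 (m p) ⟨p, hp, rfl⟩)
  · rintro p hp (hpE | hpP)
    · exact (h4 (m p) (hmem p hp) (Or.inl (hcE p hp hpE))).comp_homeo m hp
    · exact absurd hpP (hno p)
  · intro p hp
    exact (h5 _ (h7 p hp)).comp_homeo m p.2
  · intro hall
    refine h6 ?_
    intro p hp
    obtain ⟨p, rfl⟩ := m.surjective p
    have hp' : p ∈ Gᶜ := fun h => hp ⟨p, h, rfl⟩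
    exact Or.inl (hcE p hp' ((hall p hp').resolve_right (hno p)))

end Vale.Agent.Results.P116.CountableComeagreRound
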