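import Vale.Agent.P116.Defs
import Vale.Agent.P116.KB.Fin213

/-!
# P116: Koebe's Kreisnormierungsproblem

Every domain of the Riemann sphere is conformally equivalent to a circle domain.
-/

open Set Topology OnePoint

namespace Vale.Agent.Results.P116.Kreisnormierung

open Vale.Agent.P116

/-- **Koebe's conjecture.** For every domain `G` of the Riemann sphere (a nonempty connected open
set, without any condition on its complement) there is a circle domain `H`, each of whose
complementary components is a point or a closed round disk, and a holomorphic bijection of `G`
onto `H`. -/
theorem result (G : Set (OnePoint ℂ)) (hG : IsDom G) :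
    ∃ H : Set (OnePoint ℂ), IsCircleDomain H ∧ ConfEquiv G H :=
  KB.koebe_all G hG

end Vale.Agent.Results.P116.Kreisnormierung
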