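import Vale.Agent.P116.Defs
import Vale.Agent.P116.H483.Exh

/-!
# P116: Koebe's Kreisnormierungsproblem, by exhaustion

Every domain of the Riemann sphere is conformally equivalent to a circle domain; and the conformal
map is the limit of the normalized Koebe maps of a suitable exhaustion by finitely connected
domains.
-/

open Set Topology OnePoint Filter

namespace Vale.Agent.Results.P116.KreisnormierungExhaustion

open Vale.Agent.P116

/-- `G` has finitely many complementary components. -/
def FinitelyConnected (G : Set (OnePoint ℂ)) : Prop := (comp G '' Gᶜ).Finite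

/-- The map of the sphere which fixes `∞` and equals `g` in the plane maps `G` bijectively and
holomorphically onto `H`, and `g z - z → 0` as `z → ∞`. -/
def NormalizedMap (G H : Set (OnePoint ℂ)) (g : ℂ → ℂ) : Prop :=
  BijOn (OnePoint.map g) G H ∧ (∀ p ∈ G, HolAt (OnePoint.map g) p) ∧
    Tendsto (fun z => g z - z) (Bornology.cobounded ℂ) (𝓝 0)

/-- **Koebe's conjecture, by exhaustion.** (1) Every domain of the sphere is conformally equivalent
to a circle domain. (2) Let `G` be a domain with `∞ ∈ G`, and `C 0, C 1, …` closed subsets of `G`.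
There are finitely connected domains `E j ⊇ C j ∪ {∞}` with `closure (E j) ⊆ E (j + 1)` and union `G`,
and normalized conformal maps `e j` of `E j` onto finitely connected circle domains `F j`, which
converge locally uniformly to a normalized conformal map `g` of `G` onto a circle domain `H`. -/
theorem result :
    (∀ G : Set (OnePoint ℂ), IsDom G →
      ∃ H : Set (OnePoint ℂ), IsCircleDomain H ∧ ConfEquiv G H) ∧
    (∀ G : Set (OnePoint ℂ), IsDom G → ∞ ∈ G →
      ∀ C : ℕ → Set (OnePoint ℂ), (∀ j, IsClosed (C j) ∧ C j ⊆ G) →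
        ∃ (E F : ℕ → Set (OnePoint ℂ)) (H : Set (OnePoint ℂ)) (e : ℕ → ℂ → ℂ) (g : ℂ → ℂ),
          (∀ j, IsDom (E j) ∧ ∞ ∈ E j ∧ FinitelyConnected (E j) ∧ C j ⊆ E j ∧
            closure (E j) ⊆ E (j + 1)) ∧
          ⋃ j, E j = G ∧
          (∀ j, IsCircleDomain (F j) ∧ FinitelyConnected (F j) ∧
            NormalizedMap (E j) (F j) (e j)) ∧
          IsCircleDomain H ∧ NormalizedMap G H g ∧
          TendstoLocallyUniformlyOn e g atTop {z : ℂ | (z : OnePoint ℂ) ∈ G}) :=
  ⟨fun G hG => KB.koebe_all G hG, fun _ hG hi C hC => H483.exhaustion hG hi C hC⟩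

end Vale.Agent.Results.P116.KreisnormierungExhaustion
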