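import Vale.Agent.P116.Defs
import Vale.Agent.P116.PBC.Main
import Vale.Agent.P116.PBC.Sph2

/-!
# P116: packing off a closed countable family of complementary components

Contains at the same time the case of countably many complementary components (all of them may be
exceptional) and the case in which the packing condition holds everywhere.
-/

open Set Filter Topology Metric MeasureTheory OnePoint

namespace Vale.Agent.Results.P116.PackingOffCountable

open Vale.Agent.P116

/-- The length of the set of those radii `ρ ∈ (r, 2r)` for which the circle `|z - x| = ρ` meets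
the set `Q`. -/
noncomputable def cross (x : ℂ) (r : ℝ) (Q : Set (OnePoint ℂ)) : ℝ :=
  volume.real {ρ : ℝ | ρ ∈ Ioo r (2 * r) ∧ ∃ z : ℂ, dist z x = ρ ∧ (z : OnePoint ℂ) ∈ Q}

/-- The packing condition at `x`: for some `C` there are arbitrarily small radii `r > 0` such that
the sum of `cross x r Q ^ 2` over any finitely many complementary components `Q` of `G` which do
not contain `x` is at most `C * r ^ 2`. -/
def Packed (G : Set (OnePoint ℂ)) (x : ℂ) : Prop :=
  ∃ C : ℝ, ∃ᶠ r in 𝓝[>] (0 : ℝ), ∀ T : Finset (Set (OnePoint ℂ)),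
    (∀ Q ∈ T, (x : OnePoint ℂ) ∉ Q ∧ ∃ p ∈ Gᶜ, Q = comp G p) →
      ∑ Q ∈ T, cross x r Q ^ 2 ≤ C * r ^ 2

lemma pb_of_packed {G : Set (OnePoint ℂ)} (hinf : ∞ ∈ G) {x : ℂ} (h : Packed G x) :
    H906.PB (PBC.pl G) x := by
  classical
  obtain ⟨C, hC⟩ := h
  refine ⟨C, hC.mono fun r hr => ?_⟩
  intro T hT
  have hinj : Function.Injective (fun P : Set ℂ => (fun z : ℂ => (z : OnePoint ℂ)) '' P) :=
    OnePoint.coe_injective.image_injective
  have h1 := hr (T.image (fun P : Set ℂ => (fun z : ℂ => (z : OnePoint ℂ)) '' P)) (by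
    intro Q hQ
    obtain ⟨P, hP, rfl⟩ := Finset.mem_image.1 hQ
    obtain ⟨⟨y, hy, rfl⟩, hxP⟩ := hT P hP
    refine ⟨?_, (y : OnePoint ℂ), hy, ?_⟩
    · rintro ⟨z, hz, hzx⟩
      have : z = x := OnePoint.coe_injective hzx
      exact hxP (this ▸ hz)
    · exact (PBC.comp_coe hinf hy).symm)
  rw [Finset.sum_image hinj.injOn] at h1
  refine le_of_eq_of_le (Finset.sum_congr rfl fun P _ => ?_) h1
  congr 1
  rw [H906.exten, cross]
  congr 1
  ext ρ
  constructor
  · rintro ⟨h3, z, hz1, hz2⟩
    exact ⟨h3, z, hz2, z, hz1, rfl⟩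
  · rintro ⟨h3, z, hz2, w, hw, hwz⟩
    have : w = z := OnePoint.coe_injective hwz
    exact ⟨h3, z, this ▸ hw, hz2⟩

/-- **Packing off a closed countable family.** Let `G` be a domain of the Riemann sphere which
contains `∞`, and let `E` be a countable family of complementary components of `G` whose union is
closed. If the packing condition holds at each point of the complement of `G` which is in no
member of `E`, then `G` is conformally equivalent to a circle domain. -/
theorem result (G : Set (OnePoint ℂ)) (hG : IsDom G) (hinf : ∞ ∈ G)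
    (E : Set (Set (OnePoint ℂ))) (hcount : E.Countable) (hE : ∀ Q ∈ E, ∃ p ∈ Gᶜ, Q = comp G p)
    (hclosed : IsClosed (⋃₀ E))
    (hpack : ∀ x : ℂ, (x : OnePoint ℂ) ∉ G → (x : OnePoint ℂ) ∉ ⋃₀ E → Packed G x) :
    IsKoebe G := by
  have hK : IsCompact (PBC.pl G) := PBC.isCompact_pl hG.1 hinf
  have hc : IsPreconnected (PBC.pl G)ᶜ := PBC.preconn_compl_pl hG.1 hG.2 hinf
  obtain ⟨g, hg, hcomp⟩ := PBC.pbc_plane hK hc (B := PBC.tr E)
    (hclosed.preimage OnePoint.continuous_coe) (PBC.tr_sub hE) (PBC.tr_sat hinf hE)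
    (PBC.tr_count hinf hE hcount)
    (fun x hx hxB => pb_of_packed hinf (hpack x hx hxB))
  rw [PBC.eq_compl_pl hinf]
  exact PBC.sphere_transfer hK hc hg hcomp

end Vale.Agent.Results.P116.PackingOffCountable
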