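import Vale.Agent.P116.Defs
import Vale.Agent.P116.Ms.AllR
import Vale.Agent.P116.Slow.LocB
import Vale.Agent.P116.Slow.Mob
import Vale.Agent.P116.PBC.Sph2

/-!
# P116: the random Koebe theorem

For every domain `G` of the Riemann sphere there is a random conformal map `f ω` of `G`, depending
continuously on a point `ω` of a compact metrizable probability space, such that each
complementary component of `G` corresponds almost surely to a point or closed round disk.
-/

open Set Filter Topology Metric MeasureTheory OnePoint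

namespace Vale.Agent.Results.P116.RandomKoebe

open Vale.Agent.P116

/-- The complementary component of `G` at `p` corresponds, under the map `f` of `G` onto `H`, to a
point or closed round disk: there is a complementary component `comp H q` of `H`, which is a point
or a closed round disk, such that `f z` tends to `comp H q` as `z` tends to `comp G p` in `G`. -/
def RoundAt (G H : Set (OnePoint ℂ)) (f : OnePoint ℂ → OnePoint ℂ) (p : OnePoint ℂ) : Prop :=
  ∃ q ∈ Hᶜ, (comp H q = {q} ∨ IsRoundDisk (comp H q)) ∧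
    ∀ U : Set (OnePoint ℂ), IsOpen U → comp H q ⊆ U →
      ∃ W : Set (OnePoint ℂ), IsOpen W ∧ comp G p ⊆ W ∧ f '' (W ∩ G) ⊆ U

/-- The length of the set of those radii `ρ ∈ (r, 2r)` for which the circle `|z - x| = ρ` meets
the set `Q`. -/
noncomputable def cross (x : ℂ) (r : ℝ) (Q : Set (OnePoint ℂ)) : ℝ :=
  volume.real {ρ : ℝ | ρ ∈ Ioo r (2 * r) ∧ ∃ z : ℂ, dist z x = ρ ∧ (z : OnePoint ℂ) ∈ Q}

/-- The packing condition at `x`: for some `C` there are arbitrarily small radii `r > 0` such that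
the sum of `cross x r Q ^ 2` over any finitely many complementary components `Q` of `G` which do
not contain `x` is at most `C * r ^ 2`. -/
def Packed (G : Set (OnePoint ℂ)) (x : ℂ) : Prop :=
  ∃ C : ℝ, ∃ᶠ r in 𝓝[>] (0 : ℝ), ∀ T : Finset (Set (OnePoint ℂ)),
    (∀ Q ∈ T, (x : OnePoint ℂ) ∉ Q ∧ ∃ p ∈ Gᶜ, Q = comp G p) →
      ∑ Q ∈ T, cross x r Q ^ 2 ≤ C * r ^ 2

/-- The point `x` is (transboundary) parabolic: there are functions of compact support in an
arbitrarily small disk about `x`, equal to one near `x`, of arbitrarily small energy, where the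
energy is the Dirichlet integral and also the sum of the squares of the oscillations over
complementary components which do not contain `x`. -/
def Parabolic (G : Set (OnePoint ℂ)) (x : ℂ) : Prop :=
  ∀ ε > (0 : ℝ), ∀ ρ > (0 : ℝ), ∃ u : ℂ → ℝ, ContDiff ℝ 1 u ∧ (∀ᶠ z in 𝓝 x, u z = 1) ∧
    (∀ z, ρ ≤ dist z x → u z = 0) ∧ ∫ z, ‖fderiv ℝ u z‖ ^ 2 ≤ ε ∧
    ∀ T : Finset (Set (OnePoint ℂ)), (∀ Q ∈ T, (x : OnePoint ℂ) ∉ Q ∧ ∃ p ∈ Gᶜ, Q = comp G p) →
      ∑ Q ∈ T, diam (u '' {z : ℂ | (z : OnePoint ℂ) ∈ Q}) ^ 2 ≤ ε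

/-- Each point of the complementary component of `G` at `p` is packed or parabolic. (The domain `G`
contains infinity here, so that the whole complement lies in the plane.) -/
def Par (G : Set (OnePoint ℂ)) (p : OnePoint ℂ) : Prop :=
  ∞ ∈ G ∧ ∀ x : ℂ, (x : OnePoint ℂ) ∈ comp G p → Packed G x ∨ Parabolic G x

lemma inj_image :
    Function.Injective (fun P : Set ℂ => (fun z : ℂ => (z : OnePoint ℂ)) '' P) :=
  OnePoint.coe_injective.image_injective

lemma pb_of_packed {G : Set (OnePoint ℂ)} (hinf : ∞ ∈ G) {x : ℂ} (h : Packed G x) :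
    H906.PB (PBC.pl G) x := by
  classical
  obtain ⟨C, hC⟩ := h
  refine ⟨C, hC.mono fun r hr => ?_⟩
  intro T hT
  have h1 := hr (T.image (fun P : Set ℂ => (fun z : ℂ => (z : OnePoint ℂ)) '' P)) (by
    intro Q hQ
    obtain ⟨P, hP, rfl⟩ := Finset.mem_image.1 hQ
    obtain ⟨⟨y, hy, rfl⟩, hxP⟩ := hT P hP
    refine ⟨?_, (y : OnePoint ℂ), hy, ?_⟩
    · rintro ⟨z, hz, hzx⟩
      have : z = x := OnePoint.coe_injective hzx
      exact hxP (this ▸ hz)
    · exact (PBC.comp_coe hinf hy).symm)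
  rw [Finset.sum_image inj_image.injOn] at h1
  refine le_of_eq_of_le (Finset.sum_congr rfl fun P _ => ?_) h1
  congr 1
  rw [H906.exten, cross]
  congr 1
  ext ρ
  constructor
  · rintro ⟨h3, z, hz1, hz2⟩
    exact ⟨h3, z, hz2, z, hz1, rfl⟩
  · rintro ⟨h3, z, hz2, w, hw, hwz⟩
    have : w = z := OnePoint.coe_injective hwz
    exact ⟨h3, z, this ▸ hw, hz2⟩

lemma tpar_of_parabolic {G : Set (OnePoint ℂ)} (hinf : ∞ ∈ G) {x : ℂ} (h : Parabolic G x) :
    Slow.TPar (PBC.pl G) x := by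
  classical
  intro ε hε ρ hρ
  obtain ⟨u, h1, h2, h3, h4, h5⟩ := h ε hε ρ hρ
  refine ⟨u, h1, h2, h3, h4, ?_⟩
  intro T hT
  have h6 := h5 (T.image (fun P : Set ℂ => (fun z : ℂ => (z : OnePoint ℂ)) '' P)) (by
    intro Q hQ
    obtain ⟨P, hP, rfl⟩ := Finset.mem_image.1 hQ
    obtain ⟨⟨y, hy, rfl⟩, hxP⟩ := hT P hP
    refine ⟨?_, (y : OnePoint ℂ), hy, ?_⟩
    · rintro ⟨z, hz, hzx⟩
      have : z = x := OnePoint.coe_injective hzx
      exact hxP (this ▸ hz)
    · exact (PBC.comp_coe hinf hy).symm)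
  rw [Finset.sum_image inj_image.injOn] at h6
  refine le_of_eq_of_le (Finset.sum_congr rfl fun P _ => ?_) h6
  have h7 : {z : ℂ | (z : OnePoint ℂ) ∈ (fun z : ℂ => (z : OnePoint ℂ)) '' P} = P := by
    ext z
    constructor
    · rintro ⟨w, hw, hwz⟩
      have : w = z := OnePoint.coe_injective hwz
      exact this ▸ hw
    · intro hz
      exact ⟨z, hz, rfl⟩
  rw [h7]

lemma tpar_of {G : Set (OnePoint ℂ)} (hG : IsOpen G) (hinf : ∞ ∈ G) {x : ℂ}
    (h : Packed G x ∨ Parabolic G x) : Slow.TPar (PBC.pl G) x := by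
  rcases h with h | h
  · exact Slow.TPar.of_PB (PBC.isCompact_pl hG hinf) (pb_of_packed hinf h)
  · exact tpar_of_parabolic hinf h

/-- homeomorphic spaces have the same components -/
lemma exists_ccMap {α β : Type*} [TopologicalSpace α] [TopologicalSpace β] (e : α ≃ₜ β) :
    ∃ φ : ConnectedComponents α → ConnectedComponents β, Continuous φ ∧
      ∀ x, φ (ConnectedComponents.mk x) = ConnectedComponents.mk (e x) :=
  ⟨e.continuous.connectedComponentsMap, e.continuous.connectedComponentsMap_continuous,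
    fun _ => rfl⟩

/-- A random conformal map of `G`: the conformal map `f ω` of `G` onto the domain `H ω` depends
continuously on the point `ω` of the compact metrizable space `Ω`, which has a Borel probability
measure `P`, and

* each complementary component corresponds almost surely to a point or closed round disk;
* for each s-finite Borel measure on the space of complementary components, almost surely almost
  every complementary component corresponds to a point or closed round disk;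
* almost surely this is true for comeagre many complementary components;
* it is always true for the components all of whose points are packed or parabolic. -/
structure RandomRound (G : Set (OnePoint ℂ)) (Ω : Type) [TopologicalSpace Ω] [MeasurableSpace Ω]
    (P : Measure Ω) (H : Ω → Set (OnePoint ℂ)) (f : Ω → OnePoint ℂ → OnePoint ℂ) : Prop where
  cpt : CompactSpace Ω
  metr : TopologicalSpace.MetrizableSpace Ω
  borel : BorelSpace Ω
  prob : IsProbabilityMeasure P
  cont : ContinuousOn (fun q : Ω × OnePoint ℂ => f q.1 q.2) (univ ×ˢ G)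
  dom : ∀ ω, IsDom (H ω)
  bij : ∀ ω, BijOn (f ω) G (H ω)
  hol : ∀ ω, ∀ p ∈ G, HolAt (f ω) p
  round : ∀ p ∈ Gᶜ, ∀ᵐ ω ∂P, RoundAt G (H ω) (f ω) p
  ae : ∀ [MeasurableSpace (ConnectedComponents ↥Gᶜ)] [BorelSpace (ConnectedComponents ↥Gᶜ)]
    (ν : Measure (ConnectedComponents ↥Gᶜ)) [SFinite ν], ∀ᵐ ω ∂P, ∀ᵐ c ∂ν,
      ∀ p : ↥Gᶜ, ConnectedComponents.mk p = c → RoundAt G (H ω) (f ω) p
  res : ∀ᵐ ω ∂P, ∃ 𝒰 ∈ residual (ConnectedComponents ↥Gᶜ),
    ∀ p : ↥Gᶜ, ConnectedComponents.mk p ∈ 𝒰 → RoundAt G (H ω) (f ω) p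
  par : ∀ ω, ∀ p ∈ Gᶜ, Par G p → RoundAt G (H ω) (f ω) p

lemma holAt_id (p : OnePoint ℂ) : HolAt id p := by
  induction p using OnePoint.rec with
  | infty =>
    exact ⟨fun z : ℂ => recip (z : OnePoint ℂ), Or.inr rfl,
      fun z : ℂ => recip (z : OnePoint ℂ), Or.inr rfl, 0, fun z => z, recip_coe_zero,
      analyticAt_id, Eventually.of_forall fun z => rfl⟩
  | coe z =>
    exact ⟨fun z : ℂ => (z : OnePoint ℂ), Or.inl rfl, fun z : ℂ => (z : OnePoint ℂ),
      Or.inl rfl, z, fun z => z, rfl, analyticAt_id, Eventually.of_forall fun z => rfl⟩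

/-- the case of domains which contain infinity -/
theorem core (G : Set (OnePoint ℂ)) (hG : IsDom G) (hinf : ∞ ∈ G) :
    ∃ (Ω : Type) (_ : TopologicalSpace Ω) (_ : MeasurableSpace Ω) (P : Measure Ω)
      (H : Ω → Set (OnePoint ℂ)) (f : Ω → OnePoint ℂ → OnePoint ℂ), RandomRound G Ω P H f := by
  have hK : IsCompact (PBC.pl G) := PBC.isCompact_pl hG.1 hinf
  have hc : IsPreconnected (PBC.pl G)ᶜ := PBC.preconn_compl_pl hG.1 hG.2 hinf
  have hf : H906.Full (PBC.pl G) := H906.full_of_isPreconnected_compl hc hK.isBounded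
  -- points of the complement are finite
  have hfin : ∀ p ∈ Gᶜ, ∃ x ∈ PBC.pl G, (x : OnePoint ℂ) = p := by
    intro p hp
    induction p using OnePoint.rec with
    | infty => exact absurd hinf hp
    | coe z => exact ⟨z, hp, rfl⟩
  rcases (PBC.pl G).eq_empty_or_nonempty with hemp | hne
  · have hno : ∀ p, p ∉ Gᶜ := by
      intro p hp
      obtain ⟨x, hx, -⟩ := hfin p hp
      rw [hemp] at hx
      exact hx
    refine ⟨Unit, inferInstance, inferInstance, Measure.dirac (), fun _ => G, fun _ => id,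
      ⟨inferInstance, inferInstance, inferInstance, inferInstance, ?_, fun _ => hG,
      fun _ => bijOn_id G, fun _ p _ => holAt_id p, fun p hp => absurd hp (hno p), ?_, ?_,
      fun _ p hp => absurd hp (hno p)⟩⟩
    · exact continuous_snd.continuousOn
    · intro _ _ ν _
      exact Eventually.of_forall fun _ => Eventually.of_forall fun _ p _ => absurd p.2 (hno p)
    · exact Eventually.of_forall fun _ => ⟨univ, Filter.univ_mem, fun p _ => absurd p.2 (hno p)⟩
  obtain ⟨R, ρ, hR⟩ := Slow.exists_far hK hf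
  have hGe : ((fun z : ℂ => (z : OnePoint ℂ)) '' PBC.pl G)ᶜ = G := (PBC.eq_compl_pl hinf).symm
  obtain ⟨e, he⟩ : ∃ e : ↥Gᶜ ≃ₜ ↥(PBC.pl G), ∀ p : ↥Gᶜ, ((e p : ℂ) : OnePoint ℂ) = p := by
    have h1 : (fun z : ℂ => (z : OnePoint ℂ)) '' PBC.pl G = Gᶜ := by
      rw [← hGe, compl_compl, hGe]
    refine ⟨((OnePoint.isOpenEmbedding_coe.isEmbedding.homeomorphImage (PBC.pl G)).trans
      (Homeomorph.setCongr h1)).symm, fun p => ?_⟩
    have h2 := ((OnePoint.isOpenEmbedding_coe.isEmbedding.homeomorphImage (PBC.pl G)).trans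
      (Homeomorph.setCongr h1)).apply_symm_apply p
    exact congrArg Subtype.val h2
  obtain ⟨φ, hφ, hφe⟩ := exists_ccMap e
  obtain ⟨Ω, _, _, P, g, 𝔊, S⟩ := Ms.exists_RSt_all hR hne
  have hloc := fun ω => Slow.sphere_loc hK hc (S.nu ω)
  -- good ends
  have hround : ∀ ω, ∀ x ∈ PBC.pl G, H906.GoodAt H906.fk (PBC.pl G) (𝔊 ω : Filter _) x →
      RoundAt G (((fun z : ℂ => (z : OnePoint ℂ)) '' (g ω '' (PBC.pl G)ᶜ)ᶜ)ᶜ) (PBC.lift (g ω))
        (x : OnePoint ℂ) := by
    intro ω x hx hgx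
    obtain ⟨-, -, -, hD4, -⟩ := hloc ω
    rw [hGe] at hD4
    exact hD4 x hx (Slow.disked_of_good hK hf (S.fine ω) (S.conv ω) hx hgx)
  have hcompeq : ∀ x ∈ PBC.pl G, comp G (x : OnePoint ℂ) =
      (fun z : ℂ => (z : OnePoint ℂ)) '' connectedComponentIn (PBC.pl G) x :=
    fun x hx => PBC.comp_coe hinf hx
  have hgP : ∀ ω, ∀ x ∈ PBC.pl G, Par G (x : OnePoint ℂ) →
      H906.GoodAt H906.fk (PBC.pl G) (𝔊 ω : Filter _) x := by
    intro ω x hx hxP
    refine S.par ω x hx fun y hy => tpar_of hG.1 hinf (hxP.2 y ?_)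
    rw [hcompeq x hx]
    exact ⟨y, hy, rfl⟩
  refine ⟨Ω, _, _, P, fun ω => ((fun z : ℂ => (z : OnePoint ℂ)) '' (g ω '' (PBC.pl G)ᶜ)ᶜ)ᶜ,
    fun ω => PBC.lift (g ω), ⟨S.cpt, S.metr, S.borel, S.prob, ?_, fun ω => (hloc ω).1, ?_, ?_, ?_,
    ?_, ?_, ?_⟩⟩
  · have h1 := Ms.rfb hK hc S.cont S.nu
    rwa [hGe] at h1
  · intro ω
    obtain ⟨-, hD2, -⟩ := hloc ω
    rwa [hGe] at hD2
  · intro ω
    obtain ⟨-, -, hD3, -⟩ := hloc ω
    rwa [hGe] at hD3
  · intro p hp
    obtain ⟨x, hx, rfl⟩ := hfin p hp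
    filter_upwards [S.good x hx] with ω hω using hround ω x hx hω
  · intro _ _ ν _
    let _ : MeasurableSpace (ConnectedComponents ↥(PBC.pl G)) := borel _
    have : BorelSpace (ConnectedComponents ↥(PBC.pl G)) := ⟨rfl⟩
    filter_upwards [S.ae (ν.map φ)] with ω hω
    filter_upwards [ae_of_ae_map hφ.measurable.aemeasurable hω] with c hc
    rintro p rfl
    have h4 := hround ω (e p) (e p).2 (hc (e p) (hφe p).symm)
    rwa [he p] at h4
  · filter_upwards [S.res] with ω hres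
    obtain ⟨𝒰, h𝒰, h2⟩ := Slow.residual_cc e hres
    refine ⟨𝒰, h𝒰, fun p hp => ?_⟩
    have h3 : H906.GoodAt H906.fk (PBC.pl G) (𝔊 ω : Filter _) (e p : ℂ) := h2 p hp (e p) rfl
    have h4 := hround ω (e p) (e p).2 h3
    rwa [he p] at h4
  · intro ω p hp hpP
    obtain ⟨x, hx, rfl⟩ := hfin p hp
    exact hround ω x hx (hgP ω x hx hpP)

/-- transfer along a homeomorphism of the sphere -/
lemma RoundAt.comp_homeo {G H : Set (OnePoint ℂ)} {f : OnePoint ℂ → OnePoint ℂ}
    (m : OnePoint ℂ ≃ₜ OnePoint ℂ) {p : OnePoint ℂ} (hp : p ∈ Gᶜ)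
    (h : RoundAt (m '' G) H f (m p)) : RoundAt G H (f ∘ m) p := by
  obtain ⟨q, hq, h1, h2⟩ := h
  refine ⟨q, hq, h1, fun U hU hqU => ?_⟩
  obtain ⟨W, hW, hW1, hW2⟩ := h2 U hU hqU
  rw [Slow.comp_image m hp] at hW1
  refine ⟨m ⁻¹' W, hW.preimage m.continuous, image_subset_iff.1 hW1, ?_⟩
  rintro _ ⟨x, ⟨hxW, hxG⟩, rfl⟩
  exact hW2 ⟨m x, ⟨hxW, x, hxG, rfl⟩, rfl⟩

/-- **The random Koebe theorem.** For every domain `G` of the Riemann sphere there are a compact
metrizable space `Ω` with a Borel probability measure `P` and conformal maps `f ω`, `ω ∈ Ω`, of `G`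
onto domains `H ω`, where `f ω z` is jointly continuous in `(ω, z)`, such that for *each*
complementary component of `G` it is true for `P`-almost every `ω` that the component corresponds
under `f ω` to a point or a closed round disk. -/
theorem result (G : Set (OnePoint ℂ)) (hG : IsDom G) :
    ∃ (Ω : Type) (_ : TopologicalSpace Ω) (_ : MeasurableSpace Ω) (P : Measure Ω)
      (H : Ω → Set (OnePoint ℂ)) (f : Ω → OnePoint ℂ → OnePoint ℂ), RandomRound G Ω P H f := by
  by_cases hinf : ∞ ∈ G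
  · exact core G hG hinf
  obtain ⟨m, hm, hmi⟩ := Slow.exists_conf hG
  have hG' : IsDom (m '' G) :=
    ⟨m.isOpenMap _ hG.1, hG.2.image _ m.continuous.continuousOn⟩
  obtain ⟨φ, hφ, hφe⟩ := exists_ccMap (Slow.complHomeo m G)
  obtain ⟨Ω, _, _, P, H, f, S⟩ := core (m '' G) hG' hmi
  have hno : ∀ p, ¬ Par G p := fun p hp => hinf hp.1
  have hmem : ∀ p ∈ Gᶜ, m p ∈ (m '' G)ᶜ := by
    rintro p hp ⟨y, hy, hyp⟩
    exact hp (m.injective hyp ▸ hy)
  refine ⟨Ω, _, _, P, H, fun ω => f ω ∘ m, ⟨S.cpt, S.metr, S.borel, S.prob, ?_, S.dom,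
    fun ω => (S.bij ω).comp (m.injective.injOn.bijOn_image), ?_, ?_, ?_, ?_,
    fun _ p _ hpP => absurd hpP (hno p)⟩⟩
  · refine S.cont.comp (f := fun q : Ω × OnePoint ℂ => (q.1, m q.2)) ?_ ?_
    · exact (continuous_fst.prodMk (m.continuous.comp continuous_snd)).continuousOn
    · rintro ⟨ω, p⟩ ⟨-, hp⟩
      exact ⟨mem_univ _, p, hp, rfl⟩
  · intro ω p hp
    exact hm (f ω) p (S.hol ω (m p) ⟨p, hp, rfl⟩)
  · intro p hp
    filter_upwards [S.round (m p) (hmem p hp)] with ω hω using hω.comp_homeo m hp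
  · intro _ _ ν _
    let _ : MeasurableSpace (ConnectedComponents ↥(m '' G)ᶜ) := borel _
    have : BorelSpace (ConnectedComponents ↥(m '' G)ᶜ) := ⟨rfl⟩
    filter_upwards [S.ae (ν.map φ)] with ω hω
    filter_upwards [ae_of_ae_map hφ.measurable.aemeasurable hω] with c hc
    rintro p rfl
    exact (hc (Slow.complHomeo m G p) (hφe p).symm).comp_homeo m p.2
  · filter_upwards [S.res] with ω hω
    obtain ⟨𝒱, h𝒱, h5⟩ := hω
    obtain ⟨𝒰, h𝒰, h7⟩ := Slow.residual_cc (Slow.complHomeo m G) h𝒱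
    exact ⟨𝒰, h𝒰, fun p hp => (h5 _ (h7 p hp)).comp_homeo m p.2⟩

end Vale.Agent.Results.P116.RandomKoebe
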